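import Vale.Agent.P208.MathlibUsed

/-! P208: the definitions used in the final statement. -/

namespace Vale.Agent.P208

/-- A subset `X` of a metric space is doubling with constant at most `lam`, in the strong form:
every closed ball of `X` (with centre in `X`) is covered by at most `lam` open balls of half the
radius with centres in `X`. -/
def Doubling {E : Type} [MetricSpace E] (lam : ℕ) (X : Set E) : Prop :=
  ∀ x ∈ X, ∀ r : ℝ, 0 < r → ∃ T : Finset E, T.card ≤ lam ∧ (T : Set E) ⊆ X ∧
    ∀ y ∈ X, dist y x ≤ r → ∃ z ∈ T, dist y z < r / 2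

/-- A subset `X` of a metric space admits a bi-Lipschitz embedding into Euclidean `ℝ^k` with
distortion at most `D`. -/
def Embeds {E : Type} [MetricSpace E] (X : Set E) (k : ℕ) (D : ℝ) : Prop :=
  ∃ (f : E → EuclideanSpace ℝ (Fin k)) (a : ℝ), 0 < a ∧
    ∀ x ∈ X, ∀ y ∈ X, a * dist x y ≤ dist (f x) (f y) ∧ dist (f x) (f y) ≤ D * a * dist x y

end Vale.Agent.P208
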