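import Mathlib.Algebra.Order.Archimedean.Real.Hom
import Mathlib.Algebra.Order.Chebyshev
import Mathlib.Algebra.Order.Ring.Star
import Mathlib.Algebra.Order.Star.Real
import Mathlib.Algebra.Ring.IsFormallyReal
import Mathlib.Analysis.InnerProductSpace.ProdL2
import Mathlib.Analysis.InnerProductSpace.l2Space
import Mathlib.Computability.Reduce
import Mathlib.Data.Int.Star
import Mathlib.Data.List.GetD
import Mathlib.Order.CompletePartialOrder
import Mathlib.Tactic
import Mathlib.Topology.MetricSpace.Sequences

/-! The part of Mathlib that the development of this folder uses. -/
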